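import Vale.Agent.P160.Main

namespace Vale.Agent.Results.P160.QuadraticFactorLowerBound

open Vale.Agent.P160 Finset

/-- For every `n`, the singularity probability `q n` of the random symmetric `n × n` sign matrix
satisfies `q n ≥ (n (n - 1) / 2 ^ n) (1 - n (n - 1) / 2 ^ n)`. -/
theorem result (n : ℕ) :
    ((n : ℝ) * ((n : ℝ) - 1)) / 2 ^ n * (1 - ((n : ℝ) * ((n : ℝ) - 1)) / 2 ^ n) ≤ q n := by
  rcases Nat.eq_zero_or_pos n with rfl | hn
  · simp only [Nat.cast_zero, zero_mul, zero_div]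
    unfold q
    positivity
  obtain ⟨m, rfl⟩ : ∃ m, n = m + 1 := ⟨n - 1, by omega⟩
  have hcount := count_lower (m + 1)
  set Z : ℕ := (univ.filter fun ω : Sym2 (Fin (m + 1)) → Bool => (symMat ω).det = 0).card with hZ
  have hq : q (m + 1) = (Z : ℝ) / 2 ^ (m + 1 + 1).choose 2 := by
    unfold q
    rw [card_all, Fintype.card_fin, ← hZ]
    push_cast
    rfl
  have e1 : (m + 1 + 1).choose 2 = (m + 1).choose 2 + (m + 1) := by
    rw [Nat.choose_succ_succ' (m + 1) 1]; simp; ring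
  have e2 : (m + 1).choose 2 = m.choose 2 + m := by
    rw [Nat.choose_succ_succ' m 1]; simp; ring
  have e3 : m + 1 - 1 = m := by omega
  rw [e3] at hcount
  rw [hq, e1, e2]
  rw [e2] at hcount
  have hR : (2 : ℝ) * (((m : ℝ) + 1) * m * (2 ^ (m.choose 2) * 2 ^ m)) ≤
      2 * (Z : ℝ) + ((m : ℝ) + 1) * m * (((m : ℝ) + 1) * m) * 2 ^ (m.choose 2) := by
    have := (Nat.cast_le (α := ℝ)).2 hcount
    push_cast [pow_add] at this
    linarith
  set A : ℝ := 2 ^ (m.choose 2) with hA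
  set B : ℝ := 2 ^ m with hB
  have hApos : 0 < A := by positivity
  have hBpos : 0 < B := by positivity
  set M : ℝ := ((m : ℝ) + 1) * m with hM
  have hM' : ((m + 1 : ℕ) : ℝ) * (((m + 1 : ℕ) : ℝ) - 1) = M := by
    push_cast; rw [hM]; ring
  rw [hM']
  have hp1 : (2 : ℝ) ^ (m + 1) = 2 * B := by rw [pow_succ, hB]; ring
  have hp2 : (2 : ℝ) ^ (m.choose 2 + m + (m + 1)) = A * B * (2 * B) := by
    rw [pow_add, pow_add, hp1]
  rw [hp1, hp2]
  rw [le_div_iff₀ (by positivity)]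
  have : M / (2 * B) * (1 - M / (2 * B)) * (A * B * (2 * B)) = M * A * B - M * M * A / 2 := by
    field_simp
  rw [this]
  nlinarith

end Vale.Agent.Results.P160.QuadraticFactorLowerBound
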